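import Vale.Agent.P354CB.Ez

/-!
KH: a small open set such that past curves which leave it meet U.
-/

open scoped ContDiff
open Set Filter Topology Metric

namespace Vale.Agent.P354CB48

open Vale.Agent.P354n
open Vale.Agent.P354XJ
open Vale.Agent.P354CB

variable {M : Spc} {e : M.Chart} {f : R4 → ℝ} {C : ℝ}

/-- Along a future curve in a chart the displacement is bounded by the increase of f. -/
theorem dom (B : B0) (hf : Differentiable ℝ f) {I : Set ℝ} {c : ℝ → M.pt} (hc : Cv M I c)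
    {a b : ℝ} (hab : a ≤ b) (hI : Icc a b ⊆ I)
    (h : ∀ t ∈ Icc a b, On e (c t) ∧ Cb e f C (co e (c t))) :
    ‖co e (c b) - co e (c a)‖ ≤ C * (f (co e (c b)) - f (co e (c a))) := by
  rcases hab.eq_or_lt with rfl | l
  · simp
  have u := uniqueDiffOn_Icc l
  obtain ⟨x', -, k⟩ := B.vel (e := e) (B.mono hc hI u) u fun t ht => (h t ht).1
  have k1 : ∀ t ∈ Icc a b, HasDerivWithinAt (fun s => C * (f (co e (c s)) - f (co e (c a))))
      (C * fderiv ℝ f (co e (c t)) (x' t)) (Icc a b) t := fun t ht =>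
    (((hf _).hasFDerivAt.comp_hasDerivWithinAt t (k t ht).1).sub_const _).const_mul C
  have m : ∀ t ∈ Ico a b, Icc a b ∈ 𝓝[Ici t] t := fun t ht => Icc_mem_nhdsGE_of_mem ht
  exact image_norm_le_of_norm_deriv_right_le_deriv_boundary'
    (f := fun s => co e (c s) - co e (c a)) (f' := x')
    (B := fun s => C * (f (co e (c s)) - f (co e (c a))))
    (B' := fun t => C * fderiv ℝ f (co e (c t)) (x' t))
    (fun t ht => ((k t ht).1.sub_const _).continuousWithinAt)
    (fun t ht => ((k t (Ico_subset_Icc_self ht)).1.sub_const _).mono_of_mem_nhdsWithin (m t ht))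
    (by simp) (fun t ht => (k1 t ht).continuousWithinAt)
    (fun t ht => (k1 t (Ico_subset_Icc_self ht)).mono_of_mem_nhdsWithin (m t ht))
    (fun t ht => (h t (Ico_subset_Icc_self ht)).2 _ (k t (Ico_subset_Icc_self ht)).2.1.le
      (k t (Ico_subset_Icc_self ht)).2.2.le) (right_mem_Icc.2 hab)

theorem kh (B : B0) : KH := by
  intro M h e z hz f hf hcv hT U hU V hV hd
  obtain ⟨C, C0, hC⟩ := hT.cb h.sp hz
  have fd : Differentiable ℝ f := hf.differentiable (by simp)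
  obtain ⟨T, hT'⟩ : ∃ T, T = M.X e z := ⟨_, rfl⟩
  have tl : M.g e z T T < 0 := hT' ▸ h.sp.timelike e z hz
  have T0 : 0 < ‖T‖ := norm_pos_iff.2 fun k => by
    obtain ⟨L, hL, -, hg⟩ := h.sp.signature e z hz
    rw [hg, k, hL.map_zero] at tl
    simp [mink, cu, cv, c1, c2] at tl
  have e3 : ∀ᶠ y in 𝓝 z, y ∈ tgt e := (isOpen_tgt e).mem_nhds hz
  have hX : ContinuousAt (M.X e) z := (h.sp.continuous e).continuousAt e3
  have e1 : ∀ᶠ y in 𝓝 z, M.g e y T T < 0 :=
    (g_cont h.sp (p := fun y => y) (a := fun _ => T) (b := fun _ => T) hz continuousAt_id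
      continuousAt_const continuousAt_const).eventually_lt continuousAt_const tl
  have e2 : ∀ᶠ y in 𝓝 z, M.g e y T (M.X e y) < 0 :=
    (g_cont h.sp (p := fun y => y) (a := fun _ => T) (b := M.X e) hz continuousAt_id
      continuousAt_const hX).eventually_lt continuousAt_const (by rw [← hT']; exact tl)
  have e4 : ∀ᶠ y in 𝓝 z, inv e y ∈ V := inv_cont hz hV
  obtain ⟨ρ, ρ0, hρ⟩ := Metric.eventually_nhds_iff.1
    (hC.and (hU.and (e1.and (e2.and (e3.and e4)))))
  obtain ⟨D', hD'⟩ : ∃ D' : Set R4,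
    D' = {y | dist y z < ρ ∧ dist y z + C * f y < ρ / 2 + C * f z} := ⟨_, rfl⟩
  have mD : ∀ {y}, y ∈ D' ↔ dist y z < ρ ∧ dist y z + C * f y < ρ / 2 + C * f z := by
    subst hD'; rfl
  have ci : ContinuousOn (inv e) (ball z ρ) := fun y hy =>
    (inv_cont (hρ hy).2.2.2.2.1).continuousWithinAt
  have key : ∀ {I c a b}, Cv M I c → a ≤ b → Icc a b ⊆ I →
      (∀ t ∈ Icc a b, On e (c t) ∧ dist (co e (c t)) z < ρ) → co e (c b) ∈ D' →
      co e (c a) ∈ D' := fun {I c a b} hc hab hI k m => by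
    have := dom B fd hc hab hI fun t ht => ⟨(k t ht).1, (hρ (k t ht).2).1⟩
    rw [← dist_eq_norm, dist_comm] at this
    refine mD.2 ⟨(k a (left_mem_Icc.2 hab)).2, ?_⟩
    linarith [dist_triangle (co e (c a)) (co e (c b)) z, (mD.1 m).2]
  have op : ∀ {W : Set R4}, IsOpen W → IsOpen {x | On e x ∧ co e x ∈ W} := fun k =>
    (M.toE e).isOpen_inter_preimage k
  refine ⟨{x | On e x ∧ co e x ∈ D'}, fun x hx => ?_, op ?_, ⟨inv_mem hz, ?_⟩, ?_, ?_⟩
  · exact inv_co hx.1 ▸ (hρ (mD.1 hx.2).1).2.2.2.2.2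
  · have k : Continuous fun y => dist y z := continuous_id.dist continuous_const
    rw [hD']
    exact (isOpen_lt k continuous_const).inter
      (isOpen_lt (k.add (continuous_const.mul fd.continuous)) continuous_const)
  · rw [co_inv hz, mD, dist_self]
    exact ⟨ρ0, by linarith⟩
  · have cv : Convex ℝ (D' ∩ {y | f y < f z}) := by
      have a1 := ((convexOn_dist z convex_univ).add (hcv.smul C0.le)).convex_lt (ρ / 2 + C * f z)
      have a2 := hcv.convex_lt (f z)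
      have a3 := ((convex_ball z ρ).inter a1).inter a2
      rwa [show D' ∩ {y | f y < f z} = ball z ρ ∩ {x ∈ univ | ((fun z' => dist z' z) +
        fun x => C • f x) x < ρ / 2 + C * f z} ∩ {x ∈ univ | f x < f z} by ext y; simp [mD]]
    have hE : IsPreconnected (inv e '' (D' ∩ {y | f y < f z})) :=
      cv.isPreconnected.image _ (ci.mono fun y hy => (mD.1 hy.1).1)
    have sE : inv e '' (D' ∩ {y | f y < f z}) ⊆ {x | On e x ∧ co e x ∈ D'} ∩ U := by
      rintro _ ⟨y, hy, rfl⟩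
      have k := hρ (mD.1 hy.1).1
      exact ⟨⟨inv_mem k.2.2.2.2.1, (co_inv k.2.2.2.2.1).symm ▸ hy.1⟩, k.2.1 hy.2⟩
    have dn : ∀ x ∈ {x | On e x ∧ co e x ∈ D'} ∩ U, ∃ A ⊆ {x | On e x ∧ co e x ∈ D'} ∩ U,
        IsPreconnected A ∧ x ∈ A ∧ (A ∩ inv e '' (D' ∩ {y | f y < f z})).Nonempty := by
      rintro x ⟨⟨x1, x2⟩, x3⟩
      by_cases k : f (co e x) < f z
      · exact ⟨{x}, singleton_subset_iff.2 ⟨⟨x1, x2⟩, x3⟩, isPreconnected_singleton, rfl, x, rfl,
          _, ⟨x2, k⟩, inv_co x1⟩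
      obtain ⟨y, hy⟩ : ∃ y, y = co e x := ⟨_, rfl⟩
      obtain rfl : x = inv e y := by rw [hy, inv_co x1]
      rw [← hy] at k x2
      have d1 : dist y z < ρ / 2 := by
        nlinarith [(mD.1 x2).2, mul_le_mul_of_nonneg_left (not_lt.1 k) C0.le]
      obtain ⟨s, s0, hs⟩ : ∃ s > 0, s * ‖T‖ = ρ / 2 - dist y z :=
        ⟨_, div_pos (sub_pos.2 d1) T0, div_mul_cancel₀ _ T0.ne'⟩
      have b : ∀ t ∈ Icc (-s) 0, dist (y + t • T) z < ρ := fun t ht => by
        have a1 : dist (y + t • T) y ≤ s * ‖T‖ := by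
          rw [dist_self_add_left, norm_smul, Real.norm_of_nonpos ht.2]
          exact mul_le_mul_of_nonneg_right (by linarith [ht.1]) T0.le
        linarith [dist_triangle (y + t • T) y z]
      have l : -s < 0 := neg_lt_zero.2 s0
      have hc : Cv M (Icc (-s) 0) fun t => inv e (y + t • T) :=
        B.chart h (x' := fun _ => T) (uniqueDiffOn_Icc l) continuousOn_const fun t ht =>
          ⟨(hρ (b t ht)).2.2.2.2.1, by
            simpa using (((hasDerivAt_id t).smul_const T).const_add y).hasDerivWithinAt,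
            (hρ (b t ht)).2.2.1, (hρ (b t ht)).2.2.2.1⟩
      have o : ∀ t ∈ Icc (-s) 0, On e (inv e (y + t • T)) ∧ co e (inv e (y + t • T)) = y + t • T :=
        fun t ht => ⟨inv_mem (hρ (b t ht)).2.2.2.2.1, co_inv (hρ (b t ht)).2.2.2.2.1⟩
      have m0 := right_mem_Icc.2 l.le
      have m1 := left_mem_Icc.2 l.le
      have iD : ∀ t ∈ Icc (-s) 0, co e (inv e (y + t • T)) ∈ D' := fun t ht =>
        key hc ht.2 (Icc_subset_Icc_left ht.1) (fun u hu =>
          have hu' := Icc_subset_Icc_left ht.1 hu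
          ⟨(o u hu').1, (o u hu').2.symm ▸ b u hu'⟩) (by rw [(o 0 m0).2]; simpa using x2)
      refine ⟨_, ?_, isPreconnected_Icc.image _ hc.1, ⟨0, m0, by simp⟩, _, ⟨-s, m1, rfl⟩,
        _, ⟨(o _ m1).2 ▸ iD _ m1, ?_⟩, rfl⟩
      · rintro _ ⟨t, ht, rfl⟩
        refine ⟨⟨(o t ht).1, iD t ht⟩, ?_⟩
        rcases ht.2.eq_or_lt with rfl | t0
        · simpa using x3
        · exact hd _ x3 _ (hρ (b t ht)).2.2.2.2.2
            (by simpa using B.ll_cv h hc (Icc_subset_Icc_left ht.1) t0)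
      · have := dom B fd hc l.le Subset.rfl fun t ht =>
          ⟨(o t ht).1, (o t ht).2.symm ▸ (hρ (b t ht)).1⟩
        rw [(o _ m0).2, (o _ m1).2, show y + (0 : ℝ) • T - (y + -s • T) = s • T by simp,
          norm_smul, Real.norm_of_nonneg s0.le, zero_smul, add_zero] at this
        exact lt_of_mul_lt_mul_left (a := C) (by linarith [(mD.1 x2).2]) C0.le
    refine isPreconnected_of_forall_pair fun x hx y hy => ?_
    obtain ⟨A, a1, a2, a3, a4⟩ := dn x hx
    obtain ⟨A', b1, b2, b3, p, b4, b5⟩ := dn y hy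
    exact ⟨_, union_subset (union_subset a1 sE) b1, .inl (.inl a3), .inr b3,
      (a2.union' a4 hE).union p (.inr b5) b4 b2⟩
  · rintro _ hx _ ⟨c, hc, rfl, rfl⟩
    by_cases k : ∀ t ∈ Icc (0 : ℝ) 1, On e (c t) ∧ dist (co e (c t)) z < ρ
    · exact .inl ⟨(k 0 (left_mem_Icc.2 zero_le_one)).1, key hc zero_le_one Subset.rfl k hx.2⟩
    obtain ⟨t, k⟩ := not_forall.1 k
    obtain ⟨ht, k⟩ := Classical.not_imp.1 k
    have cl := (op (isOpen_ball (x := z) (ε := ρ))).isClosed_compl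
    obtain ⟨τ, h1, h2, h3⟩ := last_time cl (hc.1.mono (Icc_subset_Icc_left ht.1)) ht.2 k
      (not_not.2 ⟨hx.1, (mD.1 hx.2).1⟩)
    have τ0 : 0 ≤ τ := ht.1.trans h1.1
    replace h3 : ∀ u ∈ Ioc τ 1, On e (c u) ∧ dist (co e (c u)) z < ρ := fun u hu =>
      not_not.1 (h3 u hu)
    by_cases n : ∃ u ∈ Ioc τ 1, f (co e (c u)) < f z
    · obtain ⟨u, hu, n⟩ := n
      exact .inr (.inr ⟨c u, inv_co (h3 u hu).1 ▸ (hρ (h3 u hu).2).2.1 n,
        B.ll_cv h hc (Icc_subset_Icc_right hu.2) (τ0.trans_lt hu.1)⟩)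
    have sb : closedBall z (ρ / 2) ⊆ ball z ρ := closedBall_subset_ball (by linarith)
    have : (𝓝[Ioc τ 1] τ).NeBot := left_nhdsWithin_Ioc_neBot h1.2
    obtain ⟨y, y1, y2⟩ := ((isCompact_closedBall z (ρ / 2)).image_of_continuousOn
      (ci.mono sb)).isClosed.mem_of_tendsto
      ((hc.1 τ ⟨τ0, h1.2.le⟩).mono fun u (hu : u ∈ Ioc τ 1) => ⟨τ0.trans hu.1.le, hu.2⟩)
      (eventually_nhdsWithin_of_forall fun u hu => ⟨co e (c u), by
        have a1 := (mD.1 (key hc hu.2 (Icc_subset_Icc_left (τ0.trans hu.1.le))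
          (fun v hv => h3 v ⟨hu.1.trans_le hv.1, hv.2⟩) hx.2)).2
        have a2 := mul_le_mul_of_nonneg_left (not_lt.1 fun k => n ⟨u, hu, k⟩) C0.le
        exact mem_closedBall.2 (by linarith), inv_co (h3 u hu).1⟩)
    have y3 := (hρ (sb y1)).2.2.2.2.1
    exact absurd (y2 ▸ ⟨inv_mem y3, (co_inv y3).symm ▸ sb y1⟩) (cl.frontier_subset h2)

end Vale.Agent.P354CB48
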