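import Vale.Agent.P354CB.Ez

/-!
KT2: a spacelike slice which touches a level set of a time function from below.
-/

open scoped ContDiff
open Set Filter Topology Metric

namespace Vale.Agent.P354CB48

open Vale.Agent.P354n
open Vale.Agent.P354I (X)
open Vale.Agent.P354XJ
open Vale.Agent.P354CB

/-- Taylor bound of second order. -/
theorem tay {f : R4 → ℝ} (hf : ContDiff ℝ ∞ f) (z : R4) : ∃ K : ℝ, 0 ≤ K ∧ ∀ᶠ p in 𝓝 z,
    ‖f p - f z - fderiv ℝ f z (p - z)‖ ≤ K * ‖p - z‖ * ‖p - z‖ := by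
  have h1 : ContDiff ℝ 1 (fderiv ℝ f) := hf.fderiv_right (by norm_cast)
  obtain ⟨K, t, ht, hK⟩ := h1.contDiffAt.exists_lipschitzOnWith (x := z)
  obtain ⟨r, r0, hr⟩ := Metric.mem_nhds_iff.1 ht
  refine ⟨K, K.2, ?_⟩
  filter_upwards [ball_mem_nhds z r0] with p hp
  refine (convex_closedBall z ‖p - z‖).norm_image_sub_le_of_norm_fderiv_le' (𝕜 := ℝ)
    (fun x _ => hf.differentiable (by simp) x) (fun x hx => ?_)
    (mem_closedBall_self (norm_nonneg _)) (mem_closedBall_iff_norm.2 le_rfl)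
  have a := mem_closedBall_iff_norm.1 hx
  exact (hK.norm_sub_le (hr (mem_ball_iff_norm.2 (a.trans_lt (mem_ball_iff_norm.1 hp))))
    (hr (mem_ball_self r0))).trans (mul_le_mul_of_nonneg_left a K.2)

theorem kt2 : KT2 := by
  intro M h e z hz f hf hT y
  obtain ⟨L, hL, -, hg⟩ := h.sp.signature e z hz
  obtain ⟨T, hT'⟩ : ∃ T, T = M.X e z := ⟨_, rfl⟩
  have tl : M.g e z T T < 0 := hT' ▸ h.sp.timelike e z hz
  have T0 : T ≠ 0 := fun k => by
    rw [hg, k, hL.map_zero] at tl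
    simp [mink, cu, cv, c1, c2] at tl
  have a0 : 0 < fderiv ℝ f z T := hT.2 T T0 tl.le (hT' ▸ hT'.symm ▸ tl.le)
  have k3 : Module.finrank ℝ X = Module.finrank ℝ (fderiv ℝ f z).toLinearMap.ker := by
    have := Module.Dual.finrank_ker_add_one_of_ne_zero (f := (fderiv ℝ f z).toLinearMap)
      fun k => a0.ne' (LinearMap.congr_fun k T)
    simp only [Module.finrank_prod, Module.finrank_self, finrank_euclideanSpace_fin] at this ⊢
    omega
  obtain ⟨l, l1, l2⟩ : ∃ l : X →L[ℝ] R4, (∀ u, l u = 0 → u = 0) ∧ ∀ u, fderiv ℝ f z (l u) = 0 :=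
    ⟨((fderiv ℝ f z).toLinearMap.ker.subtype ∘ₗ
      (LinearEquiv.ofFinrankEq _ _ k3).toLinearMap).toContinuousLinearMap,
      fun u k => by simpa using k, fun u => (LinearEquiv.ofFinrankEq _ _ k3 u).2⟩
  obtain ⟨K, K0, hK⟩ := tay hf z
  obtain ⟨m, m0, hm⟩ : ∃ m > 0, m * fderiv ℝ f z T = K * (‖l‖ + 1) ^ 2 + 1 :=
    ⟨_, div_pos (by positivity) a0, div_mul_cancel₀ _ a0.ne'⟩
  have sm : ContDiff ℝ ∞ fun x : X => z + (l (x - y) - (m * ‖x - y‖ ^ 2) • T) :=
    contDiff_const.add ((l.contDiff.comp (contDiff_id.sub contDiff_const)).sub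
      ((contDiff_const.mul ((contDiff_id.sub contDiff_const).norm_sq ℝ)).smul contDiff_const))
  have dJ : HasFDerivAt (fun x : X => z + (l (x - y) - (m * ‖x - y‖ ^ 2) • T)) l y := by
    have d := (hasFDerivAt_id (𝕜 := ℝ) y).sub_const y
    simpa using ((l.hasFDerivAt.comp y d).sub ((d.norm_sq.const_mul m).smul_const T)).const_add z
  refine ⟨_, sm, by simp, fun u u0 => ?_, ?_⟩
  · rw [dJ.fderiv]
    by_contra! n
    have w0 : l u ≠ 0 := fun k => u0 (l1 u k)
    rcases le_total (M.g e z (l u) (M.X e z)) 0 with k | k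
    · exact (hT.2 _ w0 n k).ne' (l2 u)
    · refine (hT.2 (-l u) (neg_ne_zero.2 w0) ?_ ?_).ne' (by simp [l2])
      · rw [hg] at n ⊢
        simpa [hL.map_neg, mink, cu, cv, c1, c2] using n
      · rw [hg] at k ⊢
        simp only [hL.map_neg, mink, cu, cv, c1, c2, Prod.fst_neg, Prod.snd_neg] at k ⊢
        linarith
  · have c1 : Tendsto (fun x : X => z + (l (x - y) - (m * ‖x - y‖ ^ 2) • T)) (𝓝 y) (𝓝 z) := by
      simpa using sm.continuous.tendsto y
    have c2 : ∀ᶠ x in 𝓝 y, m * ‖x - y‖ * ‖T‖ < 1 :=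
      (show ContinuousAt (fun x : X => m * ‖x - y‖ * ‖T‖) y by fun_prop).eventually_lt
        continuousAt_const (by simp)
    filter_upwards [nhdsWithin_le_nhds (c1.eventually hK), nhdsWithin_le_nhds c2,
      self_mem_nhdsWithin] with x h1 h2 h3
    have u0 : 0 < ‖x - y‖ := norm_pos_iff.2 (sub_ne_zero.2 h3)
    rw [add_sub_cancel_left, (fderiv ℝ f z).map_sub, l2, map_smul, smul_eq_mul] at h1
    have b1 : ‖l (x - y) - (m * ‖x - y‖ ^ 2) • T‖ ≤ (‖l‖ + 1) * ‖x - y‖ := by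
      refine (norm_sub_le _ _).trans ?_
      rw [norm_smul, Real.norm_of_nonneg (by positivity)]
      nlinarith [l.le_opNorm (x - y)]
    have b2 := mul_le_mul_of_nonneg_left (mul_self_le_mul_self (norm_nonneg _) b1) K0
    have b3 := (le_abs_self _).trans h1
    have b4 : m * ‖x - y‖ ^ 2 * fderiv ℝ f z T = (K * (‖l‖ + 1) ^ 2 + 1) * ‖x - y‖ ^ 2 := by
      rw [← hm]; ring
    nlinarith [pow_pos u0 2]

end Vale.Agent.P354CB48
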